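import Vale.Agent.P022G.Po

/-!
P022S: integral models of a trace function with a regular element over the fraction field.
-/

set_option linter.all false

noncomputable section

namespace Vale.Agent.P022S.Lift

open IsLocalRing Vale.Agent.P022.H346 Vale.Agent.P022D.Gma Vale.Agent.P022F.Gm Vale.Agent.P022G

variable {G : Type} [Group G]

/-- the representation is controlled by its traces -/
def Ct {A : Type} [CommRing A] (ρ : G →* M2 A) : Prop :=
  ∃ c : A, c ≠ 0 ∧ ∀ (q : A) (g g' : G),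
    (∀ y z, c * q ∣ (ρ (y * g * z)).trace - (ρ (y * g' * z)).trace) →
    ∀ i j, q ∣ ρ g i j - ρ g' i j

section fld
variable {A K : Type} [CommRing A] [Field K] (φ : A →+* K)

/-- `x` is a multiple of `q` -/
def In (q : A) (x : K) : Prop := ∃ a, x = φ (q * a)

variable {φ}

theorem In.add {q : A} {x y : K} (h : In φ q x) (k : In φ q y) : In φ q (x + y) := by
  obtain ⟨a, rfl⟩ := h
  obtain ⟨b, rfl⟩ := k
  exact ⟨a + b, by rw [mul_add, map_add]⟩

theorem In.mul {q : A} {x : K} (h : In φ q x) (c : A) : In φ q (φ c * x) := by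
  obtain ⟨a, rfl⟩ := h
  exact ⟨c * a, by rw [← map_mul, mul_left_comm]⟩

theorem In.sub {q : A} {x y : K} (h : In φ q x) (k : In φ q y) : In φ q (x - y) := by
  have := h.add (k.mul (-1))
  rwa [map_neg, map_one, neg_one_mul, ← sub_eq_add_neg] at this

theorem In.mul1 {q : A} {x y : K} (h : In φ q x) (k : In φ 1 y) : In φ q (y * x) := by
  obtain ⟨b, rfl⟩ := k
  exact h.mul _

/-- the traces of all multiples of `M` are multiples of `q` -/
def Tq (φ : A →+* K) (ρ : G →* M2 K) (q : A) (M : M2 K) : Prop :=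
  ∀ y z, In φ q (ρ y * M * ρ z).trace

theorem dg {ρ : G →* M2 K} {g₀ : G} {α β : A} (h0 : ρ g₀ = !![φ α, 0; 0, φ β]) {q : A} {M : M2 K}
    (h : Tq φ ρ q M) (y z : G) :
    In φ q (φ (α - β) * (ρ y * M * ρ z) 0 0) ∧ In φ q (φ (α - β) * (ρ y * M * ρ z) 1 1) := by
  have h1 := h y z
  have h2 := h y (z * g₀)
  rw [map_mul, ← mul_assoc, h0] at h2
  generalize ρ y * M * ρ z = N at h1 h2 ⊢
  have e : (N * !![φ α, 0; 0, φ β]).trace = N 0 0 * φ α + N 1 1 * φ β := by
    simp [Matrix.trace_fin_two, Matrix.mul_apply, Fin.sum_univ_two]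
  rw [e] at h2
  rw [Matrix.trace_fin_two] at h1
  constructor
  · have := h2.sub (h1.mul β)
    rw [map_sub]
    convert this using 1
    ring
  · have := (h1.mul α).sub h2
    rw [map_sub]
    convert this using 1
    ring

theorem tq1 {ρ : G →* M2 K} {t : G → A} (ht : ∀ g, (ρ g).trace = φ (t g)) (g : G) :
    Tq φ ρ 1 (ρ g) := fun y z => ⟨_, by rw [← map_mul, ← map_mul, ht, one_mul]⟩

/-- a bounded model over the fraction field -/
theorem fld [IsDomain A] (hf : ∀ x : K, ∃ n m : A, m ≠ 0 ∧ φ m * x = φ n)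
    (hi : Function.Injective φ) {t : G → A} {d : G →* Aˣ} (T : TF t d) (g₀ : G) {α β : A}
    (hs : α + β = t g₀) (hp : α * β = d g₀) (hne : α ≠ β) :
    ∃ (ρ : G →* M2 K) (δ : A), δ ≠ 0 ∧ (∀ g, (ρ g).trace = φ (t g)) ∧
      (∀ g, (ρ g).det = φ (d g)) ∧ (∀ g i j, In φ 1 (φ δ * ρ g i j)) ∧
      ∀ q g g', Tq φ ρ q (ρ g - ρ g') → ∀ i j, In φ q (φ δ * (ρ g - ρ g') i j) := by
  have hab : α - β ≠ 0 := sub_ne_zero.2 hne
  have hne' : φ α - φ β ≠ 0 := by rw [← map_sub]; exact (map_ne_zero_iff φ hi).2 hab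
  obtain ⟨ρ, -, -, h0, ht, hd, -, -, -⟩ := Bal.bal (Po.tf_map T φ) g₀ (α := φ α) (β := φ β)
    (u := (φ α - φ β)⁻¹) (by rw [← map_add, hs]) (by rw [← map_mul, hp]; rfl)
    (mul_inv_cancel₀ hne') 1 (fun _ _ => one_dvd _) (RingHom.id K) 1 (by simp)
  replace h0 : ρ g₀ = !![φ α, 0; 0, φ β] := h0
  replace ht : ∀ g, (ρ g).trace = φ (t g) := ht
  replace hd : ∀ g, (ρ g).det = φ (d g) := hd
  by_cases h : (∃ g, ρ g 0 1 ≠ 0) ∧ ∃ g, ρ g 1 0 ≠ 0
  · obtain ⟨⟨g₁, b1⟩, h₁, c1⟩ := h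
    obtain ⟨n, m, hm, e⟩ := hf (ρ g₁ 0 1)
    obtain ⟨n', m', hm', e'⟩ := hf (ρ h₁ 1 0)
    have hn : n ≠ 0 := fun k => mul_ne_zero ((map_ne_zero_iff φ hi).2 hm) b1 (by rw [e, k, map_zero])
    have hn' : n' ≠ 0 := fun k =>
      mul_ne_zero ((map_ne_zero_iff φ hi).2 hm') c1 (by rw [e', k, map_zero])
    have key : ∀ q M, Tq φ ρ q M → ∀ i j, In φ q (φ ((α - β) * (α - β) * n * n') * M i j) := by
      intro q M hM i j
      obtain ⟨a0, a1⟩ := dg h0 hM 1 1
      obtain ⟨a2, -⟩ := dg h0 hM g₁ 1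
      obtain ⟨a3, -⟩ := dg h0 hM 1 h₁
      obtain ⟨y0, -⟩ := dg h0 (tq1 ht g₁) 1 1
      obtain ⟨z0, -⟩ := dg h0 (tq1 ht h₁) 1 1
      simp only [map_one, one_mul, mul_one] at a0 a1 a2 a3 y0 z0
      rw [Matrix.mul_apply, Fin.sum_univ_two] at a2 a3
      fin_cases i <;> fin_cases j
      · show In φ q (_ * M 0 0)
        convert a0.mul ((α - β) * n * n') using 1
        simp only [map_mul]; ring
      · show In φ q (_ * M 0 1)
        convert ((a3.mul (α - β)).sub (a0.mul1 z0)).mul (n * m') using 1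
        simp only [map_mul, ← e']; ring
      · show In φ q (_ * M 1 0)
        convert ((a2.mul (α - β)).sub (a0.mul1 y0)).mul (n' * m) using 1
        simp only [map_mul, ← e]; ring
      · show In φ q (_ * M 1 1)
        convert a1.mul ((α - β) * n * n') using 1
        simp only [map_mul]; ring
    exact ⟨ρ, _, mul_ne_zero (mul_ne_zero (mul_ne_zero hab hab) hn) hn', ht, hd,
      fun g => key 1 _ (tq1 ht g), fun q g g' => key q _⟩
  · have hx : ∀ g k, ρ g 0 1 * ρ k 1 0 = 0 := fun g k => by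
      by_contra c
      exact h ⟨⟨g, left_ne_zero_of_mul c⟩, k, right_ne_zero_of_mul c⟩
    let σ : G →* M2 K :=
      { toFun := fun g => !![ρ g 0 0, 0; 0, ρ g 1 1]
        map_one' := by rw [map_one, Matrix.one_fin_two]; rfl
        map_mul' := fun g k => by
          rw [map_mul, Matrix.mul_apply, Matrix.mul_apply, Fin.sum_univ_two, Fin.sum_univ_two, hx,
            mul_comm (ρ g 1 0), hx, Matrix.mul_fin_two]
          simp }
    have hσ : ∀ g, σ g = !![ρ g 0 0, 0; 0, ρ g 1 1] := fun _ => rfl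
    have s0 : σ g₀ = !![φ α, 0; 0, φ β] := by rw [hσ, h0]; rfl
    have st : ∀ g, (σ g).trace = φ (t g) := fun g => by
      rw [hσ, Matrix.trace_fin_two_of, ← ht, Matrix.trace_fin_two]
    have key : ∀ q M, M 0 1 = 0 → M 1 0 = 0 → Tq φ σ q M → ∀ i j, In φ q (φ (α - β) * M i j) := by
      intro q M m1 m2 hM i j
      obtain ⟨a0, a1⟩ := dg s0 hM 1 1
      simp only [map_one, one_mul, mul_one] at a0 a1
      fin_cases i <;> fin_cases j
      · exact a0
      · exact ⟨0, by show _ * M 0 1 = _; rw [m1, mul_zero, mul_zero, map_zero]⟩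
      · exact ⟨0, by show _ * M 1 0 = _; rw [m2, mul_zero, mul_zero, map_zero]⟩
      · exact a1
    refine ⟨σ, α - β, hab, st, fun g => ?_, fun g => key 1 _ rfl rfl (tq1 st g),
      fun q g g' => key q _ (sub_self (0 : K)) (sub_self (0 : K))⟩
    rw [hσ, Matrix.det_fin_two_of, ← hd, Matrix.det_fin_two, hx, mul_zero]

/-- a stable lattice -/
theorem lat [IsDomain A] [ValuationRing A] [WfDvdMonoid A] (hi : Function.Injective φ)
    (ρ : G →* M2 K) {δ : A} (hδ : δ ≠ 0) (hb : ∀ g i j, In φ 1 (φ δ * ρ g i j))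
    (hc : ∀ q g g', Tq φ ρ q (ρ g - ρ g') → ∀ i j, In φ q (φ δ * (ρ g - ρ g') i j)) :
    ∃ σ : G →* M2 A, (∀ g, φ (σ g).trace = (ρ g).trace) ∧ (∀ g, φ (σ g).det = (ρ g).det) ∧
      Ct σ := by
  let Nn : A → A → Prop := fun x y => ∀ g, ∃ u v : A,
    ρ g 0 0 * φ x + ρ g 0 1 * φ y = φ u ∧ ρ g 1 0 * φ x + ρ g 1 1 * φ y = φ v
  have n1 : Nn δ 0 := fun g => by
    obtain ⟨u, hu⟩ := hb g 0 0
    obtain ⟨v, hv⟩ := hb g 1 0
    exact ⟨_, _, by rw [← hu, map_zero]; ring, by rw [← hv, map_zero]; ring⟩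
  have n2 : Nn 0 δ := fun g => by
    obtain ⟨u, hu⟩ := hb g 0 1
    obtain ⟨v, hv⟩ := hb g 1 1
    exact ⟨_, _, by rw [← hu, map_zero]; ring, by rw [← hv, map_zero]; ring⟩
  have n3 : ∀ x y x' y' c, Nn x y → Nn x' y' → Nn (x - x' * c) (y - y' * c) := by
    intro x y x' y' c h h' g
    obtain ⟨u, v, a, b⟩ := h g
    obtain ⟨u', v', a', b'⟩ := h' g
    refine ⟨u - u' * c, v - v' * c, ?_, ?_⟩
    · simp only [map_sub, map_mul]; linear_combination a - φ c * a'
    · simp only [map_sub, map_mul]; linear_combination b - φ c * b'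
  have n4 : ∀ x y g u v, Nn x y → ρ g 0 0 * φ x + ρ g 0 1 * φ y = φ u →
      ρ g 1 0 * φ x + ρ g 1 1 * φ y = φ v → Nn u v := by
    intro x y g u v h a b k
    obtain ⟨u', v', a', b'⟩ := h (k * g)
    rw [map_mul, Matrix.mul_apply, Matrix.mul_apply, Fin.sum_univ_two, Fin.sum_univ_two] at a' b'
    exact ⟨u', v', by rw [← a, ← b, ← a']; ring, by rw [← a, ← b, ← b']; ring⟩
  obtain ⟨⟨⟨x1, y1⟩, p1⟩, x0, hx⟩ := Bal.ex_min (fun p : {p : A × A // Nn p.1 p.2} => p.1.1)
    ⟨⟨(δ, 0), n1⟩, hδ⟩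
  obtain ⟨⟨y2, p2⟩, y0, hy⟩ := Bal.ex_min (fun p : {p : A // Nn 0 p} => p.1) ⟨⟨δ, n2⟩, hδ⟩
  have bas : ∀ u v, Nn u v → ∃ c e, u = x1 * c ∧ v = y1 * c + y2 * e := fun u v h => by
    obtain ⟨c, hc⟩ : x1 ∣ u := hx ⟨(u, v), h⟩
    have := n3 u v x1 y1 c h p1
    rw [← hc, sub_self] at this
    obtain ⟨e, he⟩ : y2 ∣ v - y1 * c := hy ⟨_, this⟩
    exact ⟨c, e, hc, by rw [← he]; ring⟩
  let P : M2 A := !![x1, 0; y1, y2]
  have hP : P.det ≠ 0 := by
    rw [Matrix.det_fin_two_of, zero_mul, sub_zero]; exact mul_ne_zero x0 y0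
  have ex : ∀ g, ∃ M : M2 A, ρ g * P.map φ = P.map φ * M.map φ := fun g => by
    obtain ⟨u, v, a, b⟩ := p1 g
    obtain ⟨u', v', a', b'⟩ := p2 g
    obtain ⟨c, e, rfl, rfl⟩ := bas u v (n4 _ _ g _ _ p1 a b)
    obtain ⟨c', e', rfl, rfl⟩ := bas u' v' (n4 _ _ g _ _ p2 a' b')
    refine ⟨!![c, c'; e, e'], ?_⟩
    simp only [map_mul, map_add, map_zero] at a b a' b'
    ext i j
    fin_cases i <;> fin_cases j <;>
      simp [P, Matrix.mul_apply, Fin.sum_univ_two]
    · linear_combination a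
    · linear_combination a'
    · linear_combination b
    · linear_combination b'
  choose M hM using ex
  have hD : (P.map φ).det ≠ 0 := by
    rw [← RingHom.mapMatrix_apply, ← RingHom.map_det]; exact (map_ne_zero_iff φ hi).2 hP
  have hU : IsUnit (P.map φ) := (Matrix.isUnit_iff_isUnit_det _).2 (isUnit_iff_ne_zero.2 hD)
  have inj : ∀ X Y : M2 A, P.map φ * X.map φ = P.map φ * Y.map φ → X = Y := fun X Y h => by
    have := hU.mul_left_cancel h
    ext i j
    exact hi (congrFun (congrFun this i) j)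
  let σ : G →* M2 A :=
    { toFun := M
      map_one' := inj _ _ (by rw [← hM, map_one, one_mul, Matrix.map_one _ (map_zero φ) (map_one φ),
        mul_one])
      map_mul' := fun g k => inj _ _ (by
        rw [← hM, map_mul, mul_assoc, hM, ← mul_assoc, hM, Matrix.map_mul, mul_assoc]) }
  have hσ : ∀ g, ρ g * P.map φ = P.map φ * (σ g).map φ := hM
  have st : ∀ g, φ (σ g).trace = (ρ g).trace := fun g => by
    obtain ⟨Q, hQ⟩ := hU.exists_right_inv
    have e1 : ρ g = P.map φ * ((σ g).map φ * Q) := by rw [← mul_assoc, ← hσ, mul_assoc, hQ, mul_one]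
    rw [e1, Matrix.trace_mul_comm, mul_assoc, mul_eq_one_comm.1 hQ, mul_one,
      Matrix.trace_fin_two, Matrix.trace_fin_two, map_add]
    rfl
  refine ⟨σ, st, fun g => ?_, δ * P.det, mul_ne_zero hδ hP, fun q g g' h i j => ?_⟩
  · have := congrArg Matrix.det (hσ g)
    rw [Matrix.det_mul, Matrix.det_mul, mul_comm] at this
    rw [RingHom.map_det, RingHom.mapMatrix_apply]
    exact (mul_left_cancel₀ hD this).symm
  · choose a ha using hc (δ * P.det * q) g g' fun y z => by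
      obtain ⟨w, hw⟩ := h y z
      refine ⟨w, ?_⟩
      rw [mul_sub, sub_mul, Matrix.trace_sub, ← map_mul, ← map_mul, ← map_mul, ← map_mul, ← st,
        ← st, ← map_sub, hw]
    have e1 : φ δ • (ρ g - ρ g') = ((δ * P.det * q) • Matrix.of a).map φ := by
      ext k l
      exact ha k l
    have e2 : P * (δ • (σ g - σ g')) = (δ * P.det * q) • Matrix.of a * P := by
      ext k l
      apply hi
      have e3 : (P * (δ • (σ g - σ g'))).map φ = ((δ * P.det * q) • Matrix.of a * P).map φ := by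
        rw [Matrix.map_mul, Matrix.map_mul, ← e1, smul_mul_assoc, sub_mul, hσ, hσ, ← mul_sub,
          ← mul_smul_comm]
        congr 1
        ext k l
        simp
      exact congrFun (congrFun e3 k) l
    have e4 := congrArg (P.adjugate * ·) e2
    simp only [← mul_assoc, Matrix.adjugate_mul, smul_mul_assoc, one_mul, mul_smul_comm] at e4
    have e5 := congrFun (congrFun e4 i) j
    simp only [Matrix.smul_apply, smul_eq_mul, Matrix.sub_apply] at e5
    exact ⟨_, mul_left_cancel₀ (mul_ne_zero hδ hP) (by rw [← mul_assoc _ q, ← e5]; ring)⟩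

end fld

end Vale.Agent.P022S.Lift
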