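import Vale.Agent.P022S.Lift.A

/-!
P022S: the framed point over a curve, residually trivial case.
-/

set_option linter.all false

noncomputable section

namespace Vale.Agent.P022S.Lift

open IsLocalRing Vale.Agent.P022.H346 Vale.Agent.P022D.Gma Vale.Agent.P022F.Gm Vale.Agent.P022G

variable {G : Type} [Group G]

/-- a residually unipotent model is residually triangular -/
theorem tri {A : Type} [CommRing A] [IsLocalRing A] (h2 : (2 : A) ∈ maximalIdeal A)
    (σ : G →* M2 A) (ht : ∀ g, (σ g).trace ∈ maximalIdeal A)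
    (hd : ∀ g, (σ g).det - 1 ∈ maximalIdeal A) (hc : Ct σ) :
    ∃ ρ : G →* M2 A, (∀ g, (ρ g).trace = (σ g).trace) ∧ (∀ g, (ρ g).det = (σ g).det) ∧ Ct ρ ∧
      ∀ g, ρ g 1 0 ∈ maximalIdeal A := by
  by_cases h : ∀ g, σ g 1 0 ∈ maximalIdeal A
  · exact ⟨σ, fun _ => rfl, fun _ => rfl, hc, h⟩
  push Not at h
  obtain ⟨g₁, h1⟩ := h
  obtain ⟨v, hv⟩ := (notMem_maximalIdeal.1 h1).exists_right_inv
  let Q : M2 A := !![σ g₁ 0 0 - 1, 1; σ g₁ 1 0, 0]
  let R : M2 A := !![0, v; 1, -(v * (σ g₁ 0 0 - 1))]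
  have RQ : R * Q = 1 := by
    rw [Matrix.mul_fin_two, Matrix.one_fin_two]
    ext i j
    fin_cases i <;> fin_cases j <;> simp
    · linear_combination hv
    · linear_combination (1 - σ g₁ 0 0) * hv
  have QR : Q * R = 1 := mul_eq_one_comm.1 RQ
  let ρ : G →* M2 A :=
    { toFun := fun g => R * σ g * Q
      map_one' := by rw [map_one, mul_one, RQ]
      map_mul' := fun g k => by
        rw [map_mul, show R * σ g * Q * (R * σ k * Q) = R * (σ g * (Q * R) * σ k) * Q by
          simp only [mul_assoc], QR, mul_one] }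
  have hρ : ∀ g, ρ g = R * σ g * Q := fun _ => rfl
  have st : ∀ g, (ρ g).trace = (σ g).trace := fun g => by
    rw [hρ, Matrix.trace_mul_comm, ← mul_assoc, QR, one_mul]
  obtain ⟨c, c0, hc⟩ := hc
  refine ⟨ρ, st, fun g => ?_, ⟨c, c0, fun q g g' h i j => ?_⟩, fun g => ?_⟩
  · rw [hρ, Matrix.det_mul, Matrix.det_mul, mul_right_comm, ← Matrix.det_mul, RQ, Matrix.det_one,
      one_mul]
  · choose a ha using hc q g g' fun y z => by rw [← st, ← st]; exact h y z
    have e : σ g - σ g' = q • Matrix.of a := by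
      ext k l
      exact ha k l
    have e2 : ρ g - ρ g' = q • (R * Matrix.of a * Q) := by
      rw [hρ, hρ, ← sub_mul, ← mul_sub, e, mul_smul_comm, smul_mul_assoc]
    exact ⟨_, congrFun (congrFun e2 i) j⟩
  · have a1 := ht (g * g₁)
    have a2 := ht g
    have a3 := ht g₁
    have a4 := hd g₁
    rw [map_mul, Matrix.trace_fin_two, Matrix.mul_apply, Matrix.mul_apply, Fin.sum_univ_two,
      Fin.sum_univ_two] at a1
    rw [Matrix.trace_fin_two] at a2 a3
    rw [Matrix.det_fin_two] at a4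
    have e : ρ g 1 0 = σ g 0 0 * (σ g₁ 0 0 - 1) + σ g 0 1 * σ g₁ 1 0 -
        v * (σ g₁ 0 0 - 1) * (σ g 1 0 * (σ g₁ 0 0 - 1) + σ g 1 1 * σ g₁ 1 0) := by
      rw [hρ]
      simp [R, Q, Matrix.mul_apply, Fin.sum_univ_two, Matrix.vecMul, dotProduct]
      ring
    have k := (maximalIdeal A).sub_mem ((maximalIdeal A).sub_mem a1 a2) ((maximalIdeal A).add_mem
      ((maximalIdeal A).mul_mem_left (σ g 1 1 + σ g 1 0 * v * σ g₁ 0 0 ) a3)
      ((maximalIdeal A).sub_mem ((maximalIdeal A).mul_mem_left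
        (-σ g 1 1 - σ g 1 0 * v * σ g₁ 0 0) h2) ((maximalIdeal A).mul_mem_left (σ g 1 0 * v) a4)))
    rw [e]
    convert k using 1
    linear_combination (σ g 1 0 * σ g₁ 0 1 - σ g 1 1 * (σ g₁ 0 0 - 1)) * hv

/-- the Frobenius map balances a triangular model -/
theorem frob {A : Type} [CommRing A] [IsDomain A] [IsDiscreteValuationRing A] [CharP A 2]
    (σ : G →* M2 A) (ht : ∀ g, (σ g).trace ∈ maximalIdeal A)
    (hd : ∀ g, (σ g).det - 1 ∈ maximalIdeal A) (hc : Ct σ) (h : ∀ g, σ g 1 0 ∈ maximalIdeal A) :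
    ∃ ρ : G →* M2 A, (∀ g, (ρ g).trace = (σ g).trace ^ 2) ∧ (∀ g, (ρ g).det = (σ g).det ^ 2) ∧
      (∀ g i j, ρ g i j - (1 : M2 A) i j ∈ maximalIdeal A) ∧
      ∃ c : A, c ≠ 0 ∧ ∀ (q : A) (g g' : G),
        (∀ y z, c * q ∣ (σ (y * g * z)).trace - (σ (y * g' * z)).trace) →
        ∀ i j, q ∣ ρ g i j - ρ g' i j := by
  have h2 : (2 : A) = 0 := CharP.cast_eq_zero A 2
  obtain ⟨s, hs⟩ := IsDiscreteValuationRing.exists_irreducible A
  have hm : ∀ x, x ∈ maximalIdeal A ↔ s ∣ x := fun x => by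
    rw [hs.maximalIdeal_eq, Ideal.mem_span_singleton]
  choose w hw using fun g => (hm _).1 (h g)
  have wm : ∀ g k, w (g * k) = w g * σ k 0 0 + σ g 1 1 * w k := fun g k => by
    apply mul_left_cancel₀ hs.ne_zero
    rw [← hw, map_mul, Matrix.mul_apply, Fin.sum_univ_two, hw, hw]; ring
  have w1 : w 1 = 0 := by
    apply mul_left_cancel₀ hs.ne_zero
    rw [← hw, map_one, mul_zero]; rfl
  let ρ : G →* M2 A :=
    { toFun := fun g => !![σ g 0 0 ^ 2, s * σ g 0 1 ^ 2; s * w g ^ 2, σ g 1 1 ^ 2]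
      map_one' := by rw [map_one, w1, Matrix.one_fin_two]; simp
      map_mul' := fun g k => by
        rw [wm, map_mul, Matrix.mul_fin_two]
        simp only [Matrix.mul_apply, Fin.sum_univ_two, hw]
        ext i j
        fin_cases i <;> fin_cases j <;> simp
        · linear_combination (σ g 0 0 * σ k 0 0 * σ g 0 1 * s * w k) * h2
        · linear_combination (s * σ g 0 0 * σ k 0 1 * σ g 0 1 * σ k 1 1) * h2
        · linear_combination (s * w g * σ k 0 0 * σ g 1 1 * w k) * h2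
        · linear_combination (s * w g * σ k 0 1 * σ g 1 1 * σ k 1 1) * h2 }
  have hρ : ∀ g, ρ g = !![σ g 0 0 ^ 2, s * σ g 0 1 ^ 2; s * w g ^ 2, σ g 1 1 ^ 2] := fun _ => rfl
  obtain ⟨c, c0, hc⟩ := hc
  refine ⟨ρ, fun g => ?_, fun g => ?_, fun g i j => ?_, c * s, mul_ne_zero c0 hs.ne_zero,
    fun q g g' hq i j => ?_⟩
  · rw [hρ, Matrix.trace_fin_two_of, Matrix.trace_fin_two]
    linear_combination (-(σ g 0 0 * σ g 1 1)) * h2
  · rw [hρ, Matrix.det_fin_two_of, Matrix.det_fin_two, hw]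
    linear_combination (σ g 0 0 * σ g 1 1 * σ g 0 1 * s * w g - s ^ 2 * σ g 0 1 ^ 2 * w g ^ 2) * h2
  · have a1 := ht g
    have a2 := hd g
    have a3 := (maximalIdeal A).mul_mem_left (σ g 0 1) (h g)
    rw [Matrix.trace_fin_two] at a1
    rw [Matrix.det_fin_two] at a2
    have sm : s ∈ maximalIdeal A := (hm s).2 dvd_rfl
    rw [hρ]
    fin_cases i <;> fin_cases j
    · show σ g 0 0 ^ 2 - 1 ∈ _
      convert (maximalIdeal A).sub_mem ((maximalIdeal A).mul_mem_left (σ g 0 0) a1)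
        ((maximalIdeal A).add_mem a2 a3) using 1
      linear_combination (-1 : A) * h2
    · show s * σ g 0 1 ^ 2 - 0 ∈ _
      rw [sub_zero]; exact Ideal.mul_mem_right _ _ sm
    · show s * w g ^ 2 - 0 ∈ _
      rw [sub_zero]; exact Ideal.mul_mem_right _ _ sm
    · show σ g 1 1 ^ 2 - 1 ∈ _
      convert (maximalIdeal A).sub_mem ((maximalIdeal A).mul_mem_left (σ g 1 1) a1)
        ((maximalIdeal A).add_mem a2 a3) using 1
      linear_combination (-1 : A) * h2
  · have k := hc (s * q) g g' fun y z => by rw [← mul_assoc]; exact hq y z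
    have k' : ∀ i j, q ∣ σ g i j ^ 2 - σ g' i j ^ 2 := fun i j => by
      rw [sq_sub_sq]
      exact ((dvd_mul_left q s).trans (k i j)).mul_left _
    rw [hρ, hρ]
    fin_cases i <;> fin_cases j
    · exact k' 0 0
    · show q ∣ s * σ g 0 1 ^ 2 - s * σ g' 0 1 ^ 2
      rw [← mul_sub]; exact (k' 0 1).mul_left _
    · show q ∣ s * w g ^ 2 - s * w g' ^ 2
      have := k 1 0
      rw [hw, hw, ← mul_sub, mul_dvd_mul_iff_left hs.ne_zero] at this
      rw [← mul_sub, sq_sub_sq]
      exact (this.mul_left _).mul_left _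
    · exact k' 1 1

/-- an extension which contains the roots of a quadratic polynomial -/
theorem root {A : Type} [CommRing A] [IsDomain A] [IsDiscreteValuationRing A] [CharP A 2]
    [IsAdicComplete (maximalIdeal A) A] [Finite (ResidueField A)] (t d : A) :
    ∃ (B : Type) (_ : CommRing B) (_ : IsDomain B) (_ : IsDiscreteValuationRing B) (f : A →+* B)
      (α β : B), Function.Injective f ∧ IsAdicComplete (maximalIdeal B) B ∧
      Finite (ResidueField B) ∧ (∀ a ∈ maximalIdeal A, f a ∈ maximalIdeal B) ∧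
      α + β = f t ∧ α * β = f d := by
  let L := AlgebraicClosure (FractionRing A)
  have hi : Function.Injective (algebraMap A L) := by
    rw [IsScalarTower.algebraMap_eq A (FractionRing A) L]
    exact (algebraMap (FractionRing A) L).injective.comp (IsFractionRing.injective A _)
  let p : Polynomial A := Polynomial.X ^ 2 + (Polynomial.C (-t) * Polynomial.X + Polynomial.C d)
  have hp : p.Monic := Polynomial.monic_X_pow_add (by
    refine lt_of_le_of_lt Polynomial.degree_linear_le (by norm_num))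
  have hdeg : p.degree = 2 := by
    rw [Polynomial.degree_add_eq_left_of_degree_lt, Polynomial.degree_X_pow]
    · rfl
    · rw [Polynomial.degree_X_pow]
      exact lt_of_le_of_lt Polynomial.degree_linear_le (by norm_num)
  obtain ⟨x, hx⟩ := IsAlgClosed.exists_eval₂_eq_zero_of_injective (algebraMap A L) hi p (by
    rw [hdeg]; norm_num)
  have hI : IsIntegral A x := ⟨p, hp, hx⟩
  have := Algebra.finite_adjoin_simple_of_isIntegral hI
  obtain ⟨B, _, _, _, _, e, hf, -, hj⟩ := Curve.nrm (R := A) (B := Algebra.adjoin A {x})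
    fun a b h => hi (congrArg Subtype.val h)
  obtain ⟨j, j1, j2⟩ := hj e le_rfl
  let y : Algebra.adjoin A {x} := ⟨x, Algebra.self_mem_adjoin_singleton A x⟩
  have hy : y * (algebraMap A _ t - y) = algebraMap A _ d := Subtype.ext (by
    simp only [p, Polynomial.eval₂_add, Polynomial.eval₂_pow, Polynomial.eval₂_mul,
      Polynomial.eval₂_X, Polynomial.eval₂_C] at hx
    rw [map_neg] at hx
    show x * (algebraMap A L t - x) = algebraMap A L d
    linear_combination -hx)
  refine ⟨B, inferInstance, inferInstance, inferInstance, j.comp (algebraMap A _), j y,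
    j (algebraMap A _ t - y), j1.comp fun a b h => hi (congrArg Subtype.val h),
    Curve.cpl_max (R := A), Curve.fin_res (R := A), fun a ha => ?_, ?_, ?_⟩
  · rw [RingHom.comp_apply, j2]
    exact Curve.map_le (R := A) (Ideal.mem_map_of_mem _ (Ideal.pow_mem_of_mem _ ha _ (by positivity)))
  · rw [← map_add, add_sub_cancel]; rfl
  · rw [← map_mul, hy]; rfl

/-- **a residually trivial model** over a complete discrete valuation ring -/
theorem model {A : Type} [CommRing A] [IsDomain A] [IsDiscreteValuationRing A] [CharP A 2]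
    [IsAdicComplete (maximalIdeal A) A] [Finite (ResidueField A)] {t : G → A} {d : G →* Aˣ}
    (T : TF t d) (ht : ∀ g, t g ∈ maximalIdeal A) (hd : ∀ g, (d g : A) - 1 ∈ maximalIdeal A) :
    ∃ (B : Type) (_ : CommRing B) (_ : IsDomain B) (_ : IsDiscreteValuationRing B) (_ : CharP B 2)
      (f : A →+* B) (ρ : G →* M2 B), Function.Injective f ∧ IsAdicComplete (maximalIdeal B) B ∧
      Finite (ResidueField B) ∧ (∀ a ∈ maximalIdeal A, f a ∈ maximalIdeal B) ∧
      (∀ g, (ρ g).trace = f (t g)) ∧ (∀ g, (ρ g).det = f (d g)) ∧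
      (∀ g i j, ρ g i j - (1 : M2 B) i j ∈ maximalIdeal B) ∧
      ∀ N : ℕ, ∃ N' : ℕ, ∀ g g', (∀ y z, t (y * g * z) - t (y * g' * z) ∈ maximalIdeal A ^ N') →
        (d g : A) - d g' ∈ maximalIdeal A ^ N' → ∀ i j, ρ g i j - ρ g' i j ∈ maximalIdeal B ^ N := by
  haveI : Fact (Nat.Prime 2) := ⟨Nat.prime_two⟩
  by_cases h : ∀ g, t g = 0
  · have h2 : (2 : A) = 0 := CharP.cast_eq_zero A 2
    let ρ : G →* M2 A :=
      { toFun := fun g => !![(d g : A), 0; 0, (d g : A)]
        map_one' := by rw [map_one, Matrix.one_fin_two]; rfl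
        map_mul' := fun g k => by rw [map_mul, Matrix.mul_fin_two]; simp }
    have hρ : ∀ g, ρ g = !![(d g : A), 0; 0, (d g : A)] := fun _ => rfl
    refine ⟨A, inferInstance, inferInstance, inferInstance, inferInstance, frobenius A 2, ρ,
      frobenius_inj A 2, inferInstance, inferInstance,
      fun a ha => Ideal.pow_mem_of_mem _ ha _ two_pos, fun g => ?_, fun g => ?_, fun g i j => ?_,
      fun N => ⟨N, fun g g' _ k i j => ?_⟩⟩
    · rw [hρ, Matrix.trace_fin_two_of, h, map_zero, ← two_mul, h2, zero_mul]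
    · rw [hρ, Matrix.det_fin_two_of, frobenius_def]; ring
    · rw [hρ]
      fin_cases i <;> fin_cases j
      exacts [hd g, by simp, by simp, hd g]
    · rw [hρ, hρ]
      fin_cases i <;> fin_cases j
      exacts [k, by simp, by simp, k]
  push Not at h
  obtain ⟨g₀, h0⟩ := h
  obtain ⟨B, _, _, _, f, α, β, fi, hc, hf, fm, hs, hp⟩ := root (t g₀) (d g₀ : A)
  haveI : CharP B 2 := charP_of_injective_ringHom fi 2
  have h2 : (2 : B) = 0 := CharP.cast_eq_zero B 2
  have hi := IsFractionRing.injective B (FractionRing B)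
  obtain ⟨ρ, δ, hδ, r1, r2, r3, r4⟩ := fld (φ := algebraMap B (FractionRing B)) (fun x => by
      obtain ⟨⟨n, m⟩, e⟩ := IsLocalization.surj (nonZeroDivisors B) x
      exact ⟨n, m, nonZeroDivisors.coe_ne_zero m, by rw [mul_comm]; exact e⟩) hi
    (Po.tf_map T f) g₀ hs hp fun e => (map_ne_zero_iff f fi).2 h0 (by
      rw [← hs, e, ← two_mul, h2, zero_mul])
  obtain ⟨σ, s1, s2, s3⟩ := lat hi ρ hδ r3 r4
  replace s1 : ∀ g, (σ g).trace = f (t g) := fun g => hi ((s1 g).trans (r1 g))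
  replace s2 : ∀ g, (σ g).det = f (d g) := fun g => hi ((s2 g).trans (r2 g))
  have m1 : ∀ g, (σ g).trace ∈ maximalIdeal B := fun g => by rw [s1]; exact fm _ (ht g)
  have m2 : ∀ g, (σ g).det - 1 ∈ maximalIdeal B := fun g => by
    rw [s2, ← map_one f, ← map_sub]; exact fm _ (hd g)
  obtain ⟨τ, t1, t2, t3, t4⟩ := tri (by rw [h2]; exact zero_mem _) σ m1 m2 s3
  obtain ⟨ρ', u1, u2, u3, c, c0, u4⟩ := frob τ (fun g => by rw [t1]; exact m1 g)
    (fun g => by rw [t2]; exact m2 g) t3 t4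
  refine ⟨B, inferInstance, inferInstance, inferInstance, inferInstance, (frobenius B 2).comp f, ρ',
    (frobenius_inj B 2).comp fi, hc, hf, fun a ha => Ideal.pow_mem_of_mem _ (fm a ha) _ two_pos,
    fun g => by rw [u1, t1, s1]; rfl, fun g => by rw [u2, t2, s2]; rfl, u3, fun N => ?_⟩
  obtain ⟨ϖ, hϖ⟩ := IsDiscreteValuationRing.exists_irreducible B
  obtain ⟨n, u, hu⟩ := IsDiscreteValuationRing.eq_unit_mul_pow_irreducible c0 hϖ
  refine ⟨n + N, fun g g' k _ i j => ?_⟩
  have hle : maximalIdeal A ^ (n + N) ≤ (maximalIdeal B ^ (n + N)).comap f := by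
    rw [← Ideal.map_le_iff_le_comap, Ideal.map_pow]
    exact Ideal.pow_right_mono (Ideal.map_le_iff_le_comap.2 fm) _
  rw [hϖ.maximalIdeal_eq, Ideal.span_singleton_pow, Ideal.mem_span_singleton]
  refine u4 _ g g' (fun y z => ?_) i j
  have h1 := hle (k y z)
  rw [Ideal.mem_comap, map_sub, hϖ.maximalIdeal_eq, Ideal.span_singleton_pow,
    Ideal.mem_span_singleton] at h1
  rw [t1, t1, s1, s1, hu, mul_assoc, ← pow_add, Units.mul_left_dvd]
  exact h1

/-- **the framed point over a curve** -/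
theorem point {P : Type} [CommRing P] [IsLocalRing P] [IsNoetherianRing P]
    [IsAdicComplete (maximalIdeal P) P] [Finite (ResidueField P)] {t : G → P} {d : G →* Pˣ}
    (T : TF t d) (ht : ∀ g, t g ∈ maximalIdeal P) (hd : ∀ g, (d g : P) - 1 ∈ maximalIdeal P)
    (p : Ideal P) (hp : p.IsPrime) (h2 : (2 : P) ∈ p) (hdim : ringKrullDim (P ⧸ p) = 1) :
    ∃ (A : Type) (_ : CommRing A) (_ : IsDomain A) (_ : IsDiscreteValuationRing A) (_ : CharP A 2)
      (j : P →+* A) (ρ : G →* M2 A),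
      RingHom.ker j = p ∧ IsAdicComplete (maximalIdeal A) A ∧ Finite (ResidueField A) ∧
      (∀ x ∈ maximalIdeal P, j x ∈ maximalIdeal A) ∧
      (∀ g, (ρ g).trace = j (t g)) ∧ (∀ g, (ρ g).det = j (d g)) ∧
      (∀ g i k, ρ g i k - (1 : M2 A) i k ∈ maximalIdeal A) ∧
      (∀ g g', (∀ y z, t (y * g * z) - t (y * g' * z) ∈ p) → (d g : P) - d g' ∈ p → ρ g = ρ g') ∧
      ∀ N : ℕ, ∃ N' : ℕ, ∀ g g', (∀ y z, t (y * g * z) - t (y * g' * z) ∈ p ⊔ maximalIdeal P ^ N') →
        (d g : P) - d g' ∈ p ⊔ maximalIdeal P ^ N' →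
        ∀ i k, ρ g i k - ρ g' i k ∈ maximalIdeal A ^ N := by
  obtain ⟨A, _, _, _, _, j, hj, hm, hc, hf⟩ := Curve.curveP p hp h2 hdim
  obtain ⟨B, _, _, _, _, f, ρ, fi, c2, f2, fm, r1, r2, r3, r4⟩ := model (Po.tf_map T j)
    (fun g => (hm _).2 (ht g)) fun g => by
      have := (hm _).2 (hd g)
      rwa [map_sub, map_one] at this
  have r5 : ∀ N : ℕ, ∃ N' : ℕ, ∀ g g',
      (∀ y z, t (y * g * z) - t (y * g' * z) ∈ p ⊔ maximalIdeal P ^ N') →
      (d g : P) - d g' ∈ p ⊔ maximalIdeal P ^ N' →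
      ∀ i k, ρ g i k - ρ g' i k ∈ maximalIdeal B ^ N := fun N => by
    obtain ⟨N', h⟩ := r4 N
    have hle : p ⊔ maximalIdeal P ^ N' ≤ (maximalIdeal A ^ N').comap j := by
      refine sup_le (fun x hx => ?_) ?_
      · rw [← hj, RingHom.mem_ker] at hx
        rw [Ideal.mem_comap, hx]
        exact zero_mem _
      · rw [← Ideal.map_le_iff_le_comap, Ideal.map_pow]
        exact Ideal.pow_right_mono (Ideal.map_le_iff_le_comap.2 fun x hx =>
          Ideal.mem_comap.2 ((hm x).2 hx)) _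
    refine ⟨N', fun g g' k1 k2 => h g g' (fun y z => ?_) ?_⟩
    · have := hle (k1 y z)
      rwa [Ideal.mem_comap, map_sub] at this
    · have := hle k2
      rwa [Ideal.mem_comap, map_sub] at this
  refine ⟨B, inferInstance, inferInstance, inferInstance, inferInstance, f.comp j, ρ, ?_, c2, f2,
    fun x hx => fm _ ((hm x).2 hx), r1, r2, r3, fun g g' k1 k2 => ?_, r5⟩
  · ext x
    rw [← hj, RingHom.mem_ker, RingHom.mem_ker, RingHom.comp_apply, map_eq_zero_iff f fi]
  · ext i k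
    rw [← sub_eq_zero, ← Ideal.mem_bot,
      ← Ideal.iInf_pow_eq_bot_of_isLocalRing _ (maximalIdeal.isMaximal B).ne_top, Ideal.mem_iInf]
    intro N
    obtain ⟨N', h⟩ := r5 N
    exact h g g' (fun y z => Ideal.mem_sup_left (k1 y z)) (Ideal.mem_sup_left k2) i k

end Vale.Agent.P022S.Lift
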